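import Vale.Agent.P335.H978.Defs
import Vale.Agent.P335.H586.Gap

/-!
# P335: a symmetric positive semidefinite chain with a spectral gap
-/

namespace Vale.Agent.P335.H978

open Finset Vale.Agent.P335

section Abstract

variable {Ω : Type*} [Fintype Ω]

/-- data of a symmetric positive semidefinite stochastic matrix with gap `γ ≤ 1` -/
structure PosC (P : Ω → Ω → ℝ) (γ : ℝ) : Prop where
  Ps : ∀ x y, P x y = P y x
  P1 : ∀ x, ∑ y, P x y = 1
  psd : ∀ f : Ω → ℝ, 0 ≤ ∑ x, f x * ∑ y, P x y * f y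
  hγ0 : 0 < γ
  hγ : γ ≤ 1
  gap' : ∀ f : Ω → ℝ, ∑ x, f x = 0 → ∑ x, f x * ∑ y, P x y * f y ≤ (1 - γ) * ∑ x, f x ^ 2

namespace PosC

variable {P : Ω → Ω → ℝ} {γ : ℝ} (h : PosC P γ)
include h

theorem sum_P (f : Ω → ℝ) : ∑ y, ∑ z, P y z * f z = ∑ z, f z := by
  rw [Finset.sum_comm]
  refine Finset.sum_congr rfl fun z _ => ?_
  rw [← Finset.sum_mul]
  have : ∑ y, P y z = 1 := by
    rw [← h.P1 z]; exact Finset.sum_congr rfl fun y _ => h.Ps y z
  rw [this, one_mul]

theorem adj (f g : Ω → ℝ) :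
    ∑ x, f x * ∑ y, P x y * g y = ∑ x, (∑ y, P x y * f y) * g x := by
  simp_rw [Finset.mul_sum, Finset.sum_mul]
  rw [Finset.sum_comm]
  refine Finset.sum_congr rfl fun x _ => Finset.sum_congr rfl fun y _ => ?_
  rw [h.Ps y x]; ring

/-- One step contracts the `ℓ²` norm of a mean zero function by `1 - γ`. -/
theorem step (g : Ω → ℝ) (hg : ∑ x, g x = 0) :
    ∑ y, (∑ z, P y z * g z) ^ 2 ≤ (1 - γ) ^ 2 * ∑ z, g z ^ 2 := by
  set c := 1 - γ with hc
  have hc0 : 0 ≤ c := by have := h.hγ; rw [hc]; linarith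
  set Pg : Ω → ℝ := fun y => ∑ z, P y z * g z with hPg
  have hPg0 : ∑ y, Pg y = 0 := by rw [hPg]; simp only; rw [h.sum_P, hg]
  -- the four numbers
  set A := ∑ x, g x ^ 2
  set B := ∑ x, g x * Pg x with hB
  set C := ∑ x, Pg x ^ 2 with hC
  set D := ∑ x, Pg x * ∑ y, P x y * Pg y with hD
  have h1 : B ≤ c * A := h.gap' g hg
  have h2 : D ≤ c * C := h.gap' Pg hPg0
  have hB0 : 0 ≤ B := h.psd g
  have hD0 : 0 ≤ D := h.psd Pg
  have h3 : ∀ s : ℝ, 0 ≤ s ^ 2 * B - 2 * s * C + D := by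
    intro s
    have h4 := h.psd (fun x => s * g x - Pg x)
    have e1 : ∀ x, ∑ y, P x y * (s * g y - Pg y) = s * Pg x - ∑ y, P x y * Pg y := by
      intro x
      simp_rw [mul_sub, Finset.sum_sub_distrib]
      congr 1
      rw [hPg]
      simp only
      rw [Finset.mul_sum]
      exact Finset.sum_congr rfl fun y _ => by ring
    simp_rw [e1] at h4
    have e2 : ∀ x, (s * g x - Pg x) * (s * Pg x - ∑ y, P x y * Pg y) =
        s ^ 2 * (g x * Pg x) - s * (g x * ∑ y, P x y * Pg y) - s * Pg x ^ 2 +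
          Pg x * ∑ y, P x y * Pg y := by
      intro x; ring
    simp_rw [e2] at h4
    rw [Finset.sum_add_distrib, Finset.sum_sub_distrib, Finset.sum_sub_distrib, ← Finset.mul_sum,
      ← Finset.mul_sum, ← Finset.mul_sum, h.adj g Pg] at h4
    have e3 : ∑ x, (∑ y, P x y * g y) * Pg x = C := by
      rw [hC]
      exact Finset.sum_congr rfl fun x _ => by rw [pow_two]
    rw [e3] at h4
    linarith only [h4]
  rcases hc0.eq_or_lt with hc1 | hc1
  · -- `c = 0`
    rw [← hc1] at h1 ⊢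
    have hB1 : B = 0 := le_antisymm (by linarith) hB0
    have hC0 : C ≤ 0 := by
      by_contra hcon
      push Not at hcon
      have h5 := h3 (D / C + 1)
      rw [hB1] at h5
      have e : 2 * (D / C + 1) * C = 2 * D + 2 * C := by field_simp
      rw [e] at h5
      linarith
    linarith
  · have h5 : 0 ≤ c * (c * B - C) := by linarith only [h2, h3 c]
    have h6 : C ≤ c * B := by
      by_contra hcon
      push Not at hcon
      have : c * (c * B - C) < 0 := mul_neg_of_pos_of_neg hc1 (by linarith)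
      linarith
    calc C ≤ c * B := h6
      _ ≤ c * (c * A) := mul_le_mul_of_nonneg_left h1 hc0
      _ = c ^ 2 * A := by ring

omit h in
open Classical in
theorem mixing [Nonempty Ω] {P : Matrix Ω Ω ℝ} (h : PosC P γ) (t : ℕ) (x : Ω) :
    ∑ y, ((P ^ t) x y - 1 / (Fintype.card Ω : ℝ)) = 0 ∧
    ∑ y, ((P ^ t) x y - 1 / (Fintype.card Ω : ℝ)) ^ 2 ≤ ((1 - γ) ^ t) ^ 2 := by
  have hN : (0 : ℝ) < Fintype.card Ω := by exact_mod_cast Fintype.card_pos
  induction t with
  | zero =>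
    constructor
    · rw [pow_zero]
      simp only [Matrix.one_apply, Finset.sum_sub_distrib, Finset.sum_ite_eq, Finset.mem_univ,
        if_true, Finset.sum_const, Finset.card_univ, nsmul_eq_mul]
      field_simp
      ring
    · rw [pow_zero]
      have : ∀ y, ((1 : Matrix Ω Ω ℝ) x y - 1 / (Fintype.card Ω : ℝ)) ^ 2
          = (if x = y then 1 else 0) * (1 - 2 / (Fintype.card Ω : ℝ))
            + (1 / (Fintype.card Ω : ℝ)) ^ 2 := by
        intro y
        rw [Matrix.one_apply]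
        split_ifs <;> ring
      simp_rw [this]
      rw [Finset.sum_add_distrib, ← Finset.sum_mul]
      simp only [Finset.sum_ite_eq, Finset.mem_univ,
        if_true, Finset.sum_const, Finset.card_univ, nsmul_eq_mul]
      have e : (Fintype.card Ω : ℝ) * (1 / (Fintype.card Ω : ℝ)) ^ 2 = 1 / (Fintype.card Ω : ℝ) := by
        (clear h this; field_simp)
      rw [e]
      have h2 : 0 < 1 / (Fintype.card Ω : ℝ) := by positivity
      have h3 : 2 / (Fintype.card Ω : ℝ) = 2 * (1 / (Fintype.card Ω : ℝ)) := by ring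
      rw [h3]
      have h4 : ((1 - γ) ^ 0) ^ 2 = 1 := by norm_num
      rw [h4]
      linarith only [h2]
  | succ t ih =>
    obtain ⟨ih1, ih2⟩ := ih
    have hstep : ∀ y, (P ^ (t + 1)) x y - 1 / (Fintype.card Ω : ℝ)
        = ∑ z, P y z * ((P ^ t) x z - 1 / (Fintype.card Ω : ℝ)) := by
      intro y
      rw [pow_succ, Matrix.mul_apply]
      simp_rw [mul_sub]
      rw [Finset.sum_sub_distrib, ← Finset.sum_mul, h.P1, one_mul]
      congr 1
      refine Finset.sum_congr rfl fun z _ => ?_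
      rw [h.Ps z y, mul_comm]
    constructor
    · simp_rw [hstep]
      rw [h.sum_P (fun z => (P ^ t) x z - 1 / (Fintype.card Ω : ℝ))]
      exact ih1
    · simp_rw [hstep]
      refine (h.step (fun z => (P ^ t) x z - 1 / (Fintype.card Ω : ℝ)) ih1).trans ?_
      calc (1 - γ) ^ 2 * ∑ z, ((P ^ t) x z - 1 / (Fintype.card Ω : ℝ)) ^ 2
          ≤ (1 - γ) ^ 2 * ((1 - γ) ^ t) ^ 2 := mul_le_mul_of_nonneg_left ih2 (sq_nonneg _)
        _ = ((1 - γ) ^ (t + 1)) ^ 2 := by ring

omit h in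
open Classical in
/-- total variation distance after `t` steps -/
theorem tv {P : Matrix Ω Ω ℝ} (h : PosC P γ) {ε : ℝ} (hε : 0 < ε) (t : ℕ)
    (ht : Real.log (Fintype.card Ω) / 2 + Real.log (1 / (2 * ε)) ≤ γ * t) :
    WithinOf P ε t := by
  intro x
  have : Nonempty Ω := ⟨x⟩
  have hN : (0 : ℝ) < Fintype.card Ω := by exact_mod_cast Fintype.card_pos
  obtain ⟨_, h2⟩ := h.mixing t x
  have h3 : (∑ y, |(P ^ t) x y - 1 / (Fintype.card Ω : ℝ)|) ^ 2 ≤
      (Fintype.card Ω : ℝ) * ∑ y, ((P ^ t) x y - 1 / (Fintype.card Ω : ℝ)) ^ 2 := by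
    have := sq_sum_le_card_mul_sum_sq (s := (univ : Finset Ω))
      (f := fun y => |(P ^ t) x y - 1 / (Fintype.card Ω : ℝ)|)
    simpa only [sq_abs, Finset.card_univ] using this
  have hc0 : 0 ≤ 1 - γ := by have := h.hγ; linarith
  have h4 : (1 - γ) ^ t ≤ Real.exp (-(γ * t)) := by
    have h5 : 1 - γ ≤ Real.exp (-γ) := by
      have := Real.add_one_le_exp (-γ); linarith
    calc (1 - γ) ^ t ≤ Real.exp (-γ) ^ t := pow_le_pow_left₀ hc0 h5 t
      _ = Real.exp (-(γ * t)) := by rw [← Real.exp_nat_mul]; congr 1; ring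
  have h6 : Real.exp (-(γ * t)) ^ 2 ≤ (2 * ε) ^ 2 / Fintype.card Ω := by
    have h7 : Real.exp (-(γ * t)) ^ 2 = Real.exp (-(2 * (γ * t))) := by
      rw [← Real.exp_nat_mul]; congr 1; push_cast; ring
    have h8 : (2 * ε) ^ 2 / Fintype.card Ω =
        Real.exp (-(Real.log (Fintype.card Ω) + 2 * Real.log (1 / (2 * ε)))) := by
      rw [neg_add, Real.exp_add, Real.exp_neg, Real.exp_log hN]
      have h9 : -(2 * Real.log (1 / (2 * ε))) = Real.log ((2 * ε) ^ 2) := by
        rw [Real.log_pow, one_div, Real.log_inv]; push_cast; ring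
      rw [h9, Real.exp_log (by positivity), div_eq_inv_mul]
    rw [h7, h8]
    apply Real.exp_le_exp.mpr
    linarith only [ht]
  have h10 : (∑ y, |(P ^ t) x y - 1 / (Fintype.card Ω : ℝ)|) ^ 2 ≤ (2 * ε) ^ 2 := by
    calc _ ≤ _ := h3
      _ ≤ (Fintype.card Ω : ℝ) * ((2 * ε) ^ 2 / Fintype.card Ω) := by
          refine mul_le_mul_of_nonneg_left (h2.trans (le_trans ?_ h6)) hN.le
          exact pow_le_pow_left₀ (by positivity) h4 2
      _ = (2 * ε) ^ 2 := by field_simp
  have h11 := (le_abs_self _).trans (abs_le_of_sq_le_sq h10 (by positivity))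
  linarith only [h11]

omit h in
/-- the eigenvalues -/
theorem eigen {P : Ω → Ω → ℝ} (h : PosC P γ) {l : ℝ} {f : Ω → ℝ}
    (hf : ∀ x, ∑ y, P x y * f y = l * f x) (hne : ∃ x y, f x ≠ f y) : 0 ≤ l ∧ l ≤ 1 - γ := by
  obtain ⟨x0, y0, hxy⟩ := hne
  have : Nonempty Ω := ⟨x0⟩
  have hN : (0 : ℝ) < Fintype.card Ω := by exact_mod_cast Fintype.card_pos
  -- `f` is not zero
  have hpos : 0 < ∑ x, f x ^ 2 := by
    by_contra hcon
    have h0 : ∑ x, f x ^ 2 = 0 :=
      le_antisymm (not_lt.1 hcon) (Finset.sum_nonneg fun _ _ => sq_nonneg _)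
    have h1 := (Finset.sum_eq_zero_iff_of_nonneg (fun _ _ => sq_nonneg _)).1 h0
    have hx := pow_eq_zero_iff (two_ne_zero) |>.1 (h1 x0 (Finset.mem_univ _))
    have hy := pow_eq_zero_iff (two_ne_zero) |>.1 (h1 y0 (Finset.mem_univ _))
    exact hxy (hx.trans hy.symm)
  have hB : ∑ x, f x * ∑ y, P x y * f y = l * ∑ x, f x ^ 2 := by
    simp_rw [hf]
    rw [Finset.mul_sum]
    exact Finset.sum_congr rfl fun x _ => by ring
  have hl0 : 0 ≤ l := by
    have h2 := h.psd f
    rw [hB] at h2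
    by_contra hcon
    have := mul_neg_of_neg_of_pos (not_le.1 hcon) hpos
    linarith
  refine ⟨hl0, ?_⟩
  have hsum : (1 - l) * ∑ x, f x = 0 := by
    have h2 := h.sum_P f
    simp_rw [hf] at h2
    rw [← Finset.mul_sum] at h2
    linarith
  rcases mul_eq_zero.1 hsum with hl | hs
  · -- `l = 1`: `f` is constant
    exfalso
    have hl1 : l = 1 := by linarith
    set m := (∑ x, f x) / Fintype.card Ω with hm
    set g : Ω → ℝ := fun x => f x - m with hg
    have hg0 : ∑ x, g x = 0 := by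
      rw [hg]
      simp only [Finset.sum_sub_distrib, Finset.sum_const, Finset.card_univ, nsmul_eq_mul]
      rw [hm]; field_simp; ring
    have hPgx : ∀ x, ∑ y, P x y * g y = g x := by
      intro x
      rw [hg]
      simp only [mul_sub, Finset.sum_sub_distrib, ← Finset.sum_mul, h.P1, one_mul]
      rw [hf x, hl1, one_mul]
    have hgp : 0 < ∑ x, g x ^ 2 := by
      by_contra hcon
      have h0 : ∑ x, g x ^ 2 = 0 :=
        le_antisymm (not_lt.1 hcon) (Finset.sum_nonneg fun _ _ => sq_nonneg _)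
      have h1 := (Finset.sum_eq_zero_iff_of_nonneg (fun _ _ => sq_nonneg _)).1 h0
      have hx := pow_eq_zero_iff (two_ne_zero) |>.1 (h1 x0 (Finset.mem_univ _))
      have hy := pow_eq_zero_iff (two_ne_zero) |>.1 (h1 y0 (Finset.mem_univ _))
      simp only [hg] at hx hy
      exact hxy (by linarith)
    have hgm := h.gap' g hg0
    simp_rw [hPgx] at hgm
    have e : ∑ x, g x * g x = ∑ x, g x ^ 2 := Finset.sum_congr rfl fun x _ => (pow_two _).symm
    rw [e] at hgm
    have := mul_pos h.hγ0 hgp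
    linarith
  · have h2 := h.gap' f hs
    rw [hB] at h2
    exact le_of_mul_le_mul_right h2 hpos

omit h in
/-- transfer along a bijection -/
theorem of_equiv {Ω' : Type*} [Fintype Ω'] (e : Ω' ≃ Ω) {P : Ω → Ω → ℝ} (h : PosC P γ)
    {P' : Ω' → Ω' → ℝ} (hP : ∀ x y, P' x y = P (e x) (e y)) : PosC P' γ := by
  have key : ∀ f : Ω' → ℝ, ∑ x, f x * ∑ y, P' x y * f y =
      ∑ x, f (e.symm x) * ∑ y, P x y * f (e.symm y) := by
    intro f
    rw [← Equiv.sum_comp e]
    refine Finset.sum_congr rfl fun x _ => ?_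
    rw [← Equiv.sum_comp e (fun y => P (e x) y * f (e.symm y))]
    simp only [Equiv.symm_apply_apply, hP]
  refine ⟨fun x y => by rw [hP, hP, h.Ps], fun x => ?_, fun f => ?_, h.hγ0, h.hγ, fun f hf => ?_⟩
  · simp_rw [hP]
    rw [Equiv.sum_comp e (fun y => P (e x) y)]
    exact h.P1 _
  · rw [key]; exact h.psd _
  · rw [key]
    have e1 : ∑ x, f (e.symm x) = 0 := by rw [Equiv.sum_comp e.symm f]; exact hf
    have e2 : ∑ x, f (e.symm x) ^ 2 = ∑ x, f x ^ 2 := Equiv.sum_comp e.symm (fun x => f x ^ 2)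
    rw [← e2]
    exact h.gap' _ e1

end PosC

end Abstract

end Vale.Agent.P335.H978
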