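import Vale.Agent.P335.H586.Defs

namespace Vale.Agent.P335.H978

open Finset Vale.Agent.P335 Vale.Agent.P335.H586

/-- The graphs `G` and `H` agree except possibly for the edges that join one of the vertices
`a`, `c` to a vertex different from `a` and `c`. -/
def AgreeOff {n : ℕ} (a c : Fin n) (G H : SimpleGraph (Fin n)) : Prop :=
  ∀ u v, ((u = a ∨ u = c) ↔ (v = a ∨ v = c)) → (G.Adj u v ↔ H.Adj u v)

open Classical in
/-- The Curveball chain on the graphs with degrees `d`: choose two different vertices `a`, `c`
uniformly and replace the graph by a uniformly random one of the graphs with degrees `d` that agree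
with it except for the edges between `{a, c}` and the other vertices. -/
noncomputable def curveball {n : ℕ} (d : Fin n → ℕ) :
    Matrix (Realization d) (Realization d) ℝ :=
  fun G H => ∑ q ∈ (univ : Finset (Fin n)).offDiag, (1 / ((n : ℝ) * (n - 1))) *
    (if AgreeOff q.1 q.2 G.1 H.1 then
      1 / ((univ.filter fun K : Realization d => AgreeOff q.1 q.2 G.1 K.1).card : ℝ) else 0)

/-- The matrices `M` and `N` agree except possibly in the rows `i` and `k`. -/
def RowsAgree {a b : ℕ} (i k : Fin a) (M N : Fin a → Fin b → Bool) : Prop :=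
  ∀ l, l ≠ i → l ≠ k → M l = N l

open Classical in
/-- The bipartite Curveball chain: choose two different rows uniformly and replace the matrix by a
uniformly random one of the matrices with the same margins that agree with it in all the other
rows. -/
noncomputable def bipCurveball {a b : ℕ} (r : Fin a → ℕ) (c : Fin b → ℕ) :
    Matrix (Margins r c) (Margins r c) ℝ :=
  fun M N => ∑ q ∈ (univ : Finset (Fin a)).offDiag, (1 / ((a : ℝ) * (a - 1))) *
    (if RowsAgree q.1 q.2 M.1 N.1 then
      1 / ((univ.filter fun K : Margins r c => RowsAgree q.1 q.2 M.1 K.1).card : ℝ) else 0)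

/-- `f` is an eigenfunction of the transition matrix `P`, with eigenvalue `l`. -/
def EigenOf {Ω : Type*} [Fintype Ω] (P : Matrix Ω Ω ℝ) (l : ℝ) (f : Ω → ℝ) : Prop :=
  f ≠ 0 ∧ ∀ x, ∑ y, P x y * f y = l * f x

open Classical in
/-- After `t` steps the chain `P` is within total variation distance `ε` of the uniform
distribution, from every starting state. -/
def WithinOf {Ω : Type*} [Fintype Ω] (P : Matrix Ω Ω ℝ) (ε : ℝ) (t : ℕ) : Prop :=
  ∀ x, (1 / 2) * ∑ y, |(P ^ t) x y - 1 / (Fintype.card Ω : ℝ)| ≤ ε

end Vale.Agent.P335.H978
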