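import Vale.Agent.P335.H978.GapB

/-!
# P335: eigenvalues and mixing of the Curveball chains
-/

namespace Vale.Agent.P335.H978

open Finset Vale.Agent.P335 Vale.Agent.P335.H586

section Graph

variable {n : ℕ}

open Classical in
theorem curve_eigen (hn : 4 ≤ n) (d : Fin n → ℕ) (l : ℝ) (f : Realization d → ℝ)
    (hf : EigenOf (curveball d) l f) (hne : ∃ G H, f G ≠ f H) :
    0 ≤ l ∧ l ≤ 1 - 4 / ((n : ℝ) * (n - 1)) :=
  PosC.eigen (posC_curveball hn d) hf.2 hne

open Classical in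
theorem curve_tv (hn : 4 ≤ n) (d : Fin n → ℕ) {ε : ℝ} (hε : 0 < ε) (t : ℕ)
    (ht : (n : ℝ) * (n - 1) / 4 * (Real.log (Nat.card (Realization d)) / 2 +
      Real.log (1 / (2 * ε))) ≤ t) : WithinOf (curveball d) ε t := by
  have hn' : (4 : ℝ) ≤ n := by exact_mod_cast hn
  have hpos : (0 : ℝ) < (n : ℝ) * (n - 1) := mul_pos (by linarith) (by linarith)
  refine PosC.tv (posC_curveball hn d) hε t ?_
  rw [Nat.card_eq_fintype_card] at ht
  rw [div_mul_eq_mul_div, le_div_iff₀ hpos]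
  linarith only [ht]

open Classical in
theorem log_real_le (d : Fin n → ℕ) :
    Real.log (Nat.card (Realization d)) ≤ (n : ℝ) * (n - 1) / 2 * Real.log 2 := by
  rw [Nat.card_eq_fintype_card]
  have h1 := card_realization_le d
  have hn0 : (0 : ℝ) ≤ (n : ℝ) * (n - 1) / 2 := by
    rw [← Nat.cast_choose_two]; positivity
  by_cases h0 : Fintype.card (Realization d) = 0
  · rw [h0, Nat.cast_zero, Real.log_zero]
    have := Real.log_nonneg (show (1 : ℝ) ≤ 2 by norm_num)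
    exact mul_nonneg hn0 this
  · have h3 : (Fintype.card (Realization d) : ℝ) ≤ 2 ^ (n.choose 2) := by exact_mod_cast h1
    have h4 : (0 : ℝ) < Fintype.card (Realization d) := by
      exact_mod_cast Nat.pos_of_ne_zero h0
    calc Real.log (Fintype.card (Realization d)) ≤ Real.log (2 ^ (n.choose 2)) :=
          Real.log_le_log h4 h3
      _ = (n : ℝ) * (n - 1) / 2 * Real.log 2 := by rw [Real.log_pow, Nat.cast_choose_two]

open Classical in
theorem curve_poly (hn : 4 ≤ n) (d : Fin n → ℕ) (t : ℕ) (ht : n ^ 4 ≤ 8 * t) :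
    WithinOf (curveball d) (1 / 4) t := by
  refine curve_tv hn d (by norm_num) t ?_
  have hn' : (4 : ℝ) ≤ n := by exact_mod_cast hn
  have ht' : (n : ℝ) ^ 4 ≤ 8 * t := by exact_mod_cast ht
  have e : (1 / (2 * (1 / 4)) : ℝ) = 2 := by norm_num
  rw [e]
  have hl := log_real_le d
  have l2 : Real.log 2 ≤ 7 / 10 := by
    have := Real.log_two_lt_d9; linarith
  have l20 : 0 ≤ Real.log 2 := Real.log_nonneg (by norm_num)
  have hsq : (n : ℝ) * (n - 1) ≤ (n : ℝ) ^ 2 := by nlinarith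
  have h16 : (16 : ℝ) ≤ (n : ℝ) ^ 2 := by nlinarith
  have hp0 : 0 ≤ (n : ℝ) * (n - 1) := mul_nonneg (by linarith) (by linarith)
  have h1 : Real.log (Nat.card (Realization d)) / 2 + Real.log 2 ≤
      ((n : ℝ) ^ 2 / 4 + 1) * (7 / 10) := by
    calc Real.log (Nat.card (Realization d)) / 2 + Real.log 2
        ≤ ((n : ℝ) * (n - 1) / 2 * Real.log 2) / 2 + Real.log 2 := by linarith
      _ = ((n : ℝ) * (n - 1) / 4 + 1) * Real.log 2 := by ring
      _ ≤ ((n : ℝ) ^ 2 / 4 + 1) * (7 / 10) := by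
          refine mul_le_mul (by linarith) l2 l20 (by positivity)
  calc (n : ℝ) * (n - 1) / 4 * (Real.log (Nat.card (Realization d)) / 2 + Real.log 2)
      ≤ (n : ℝ) * (n - 1) / 4 * (((n : ℝ) ^ 2 / 4 + 1) * (7 / 10)) :=
        mul_le_mul_of_nonneg_left h1 (by linarith)
    _ ≤ (n : ℝ) ^ 2 / 4 * (((n : ℝ) ^ 2 / 4 + 1) * (7 / 10)) :=
        mul_le_mul_of_nonneg_right (by linarith) (by positivity)
    _ ≤ (n : ℝ) ^ 4 / 8 := by nlinarith
    _ ≤ t := by linarith

open Classical in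
theorem curve_edges (hn : 4 ≤ n) (d : Fin n → ℕ) (t : ℕ)
    (ht : (n : ℝ) ^ 2 * ((∑ v, (d v : ℝ)) * Real.log n + 2) / 8 ≤ t) :
    WithinOf (curveball d) (1 / 4) t := by
  by_cases hd : Graphical d
  swap
  · intro G
    exact absurd ⟨G.1, G.2⟩ hd
  refine curve_tv hn d (by norm_num) t (le_trans ?_ ht)
  have hn' : (4 : ℝ) ≤ n := by exact_mod_cast hn
  have h1 := log_card_le hn d hd
  have hl : Real.log (1 / (2 * (1 / 4))) ≤ 1 := by
    have e : (1 / (2 * (1 / 4)) : ℝ) = 2 := by norm_num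
    rw [e]
    have := Real.log_two_lt_d9
    linarith
  have hl0 : 0 ≤ Real.log (1 / (2 * (1 / 4))) := Real.log_nonneg (by norm_num)
  have hc0 : 0 ≤ Real.log (Nat.card (Realization d)) := Real.log_natCast_nonneg _
  have hsq : (n : ℝ) * (n - 1) ≤ (n : ℝ) ^ 2 := by nlinarith
  have hp0 : 0 ≤ (n : ℝ) * (n - 1) := mul_nonneg (by linarith) (by linarith)
  calc (n : ℝ) * (n - 1) / 4 * (Real.log (Nat.card (Realization d)) / 2 +
        Real.log (1 / (2 * (1 / 4))))
      ≤ (n : ℝ) ^ 2 / 4 * ((∑ v, (d v : ℝ)) * Real.log n / 2 + 1) :=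
        mul_le_mul (by linarith) (by linarith) (by linarith) (by positivity)
    _ = (n : ℝ) ^ 2 * ((∑ v, (d v : ℝ)) * Real.log n + 2) / 8 := by ring

end Graph

section Matrices

variable {a b : ℕ}

open Classical in
theorem bip_curve_eigen (ha : 2 ≤ a) (r : Fin a → ℕ) (c : Fin b → ℕ) (l : ℝ)
    (f : Margins r c → ℝ) (hf : EigenOf (bipCurveball r c) l f) (hne : ∃ M N, f M ≠ f N) :
    0 ≤ l ∧ l ≤ 1 - 2 / ((a : ℝ) * (a - 1)) := by
  have : Nonempty (Margins r c) := hne.nonempty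
  exact PosC.eigen (posC_bip ha) hf.2 hne

open Classical in
theorem bip_curve_tv (ha : 2 ≤ a) (r : Fin a → ℕ) (c : Fin b → ℕ) {ε : ℝ} (hε : 0 < ε) (t : ℕ)
    (ht : (a : ℝ) * (a - 1) / 2 * (Real.log (Nat.card (Margins r c)) / 2 +
      Real.log (1 / (2 * ε))) ≤ t) : WithinOf (bipCurveball r c) ε t := by
  intro M
  have hne : Nonempty (Margins r c) := ⟨M⟩
  have ha' : (2 : ℝ) ≤ a := by exact_mod_cast ha
  have hpos : (0 : ℝ) < (a : ℝ) * (a - 1) := mul_pos (by linarith) (by linarith)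
  refine PosC.tv (posC_bip ha) hε t ?_ M
  rw [Nat.card_eq_fintype_card] at ht
  rw [div_mul_eq_mul_div, le_div_iff₀ hpos]
  linarith only [ht]

open Classical in
theorem bip_curve_poly (ha : 2 ≤ a) (hb : 1 ≤ b) (r : Fin a → ℕ) (c : Fin b → ℕ) (t : ℕ)
    (ht : a ^ 3 * b ≤ 2 * t) : WithinOf (bipCurveball r c) (1 / 4) t := by
  refine bip_curve_tv ha r c (by norm_num) t ?_
  have ha' : (2 : ℝ) ≤ a := by exact_mod_cast ha
  have hb' : (1 : ℝ) ≤ b := by exact_mod_cast hb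
  have ht' : (a : ℝ) ^ 3 * b ≤ 2 * t := by exact_mod_cast ht
  have e : (1 / (2 * (1 / 4)) : ℝ) = 2 := by norm_num
  rw [e]
  have hl := log_margins_le r c
  have l2 : Real.log 2 ≤ 7 / 10 := by
    have := Real.log_two_lt_d9; linarith
  have l20 : 0 ≤ Real.log 2 := Real.log_nonneg (by norm_num)
  have hab : (2 : ℝ) ≤ a * b := by nlinarith
  have h1 : Real.log (Nat.card (Margins r c)) / 2 + Real.log 2 ≤ (a * b / 2 + 1) * (7 / 10) := by
    calc Real.log (Nat.card (Margins r c)) / 2 + Real.log 2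
        ≤ (a * b * Real.log 2) / 2 + Real.log 2 := by linarith
      _ = (a * b / 2 + 1) * Real.log 2 := by ring
      _ ≤ (a * b / 2 + 1) * (7 / 10) := mul_le_mul_of_nonneg_left l2 (by positivity)
  have h2 : (a * b / 2 + 1) * (7 / 10) ≤ (a : ℝ) * b * (7 / 10) := by linarith
  have hsq : (a : ℝ) * (a - 1) ≤ (a : ℝ) ^ 2 := by nlinarith
  have hp0 : 0 ≤ (a : ℝ) * (a - 1) := mul_nonneg (by linarith) (by linarith)
  calc (a : ℝ) * (a - 1) / 2 * (Real.log (Nat.card (Margins r c)) / 2 + Real.log 2)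
      ≤ (a : ℝ) * (a - 1) / 2 * ((a : ℝ) * b * (7 / 10)) :=
        mul_le_mul_of_nonneg_left (h1.trans h2) (by linarith)
    _ ≤ (a : ℝ) ^ 2 / 2 * ((a : ℝ) * b * (7 / 10)) :=
        mul_le_mul_of_nonneg_right (by linarith) (by positivity)
    _ = (a : ℝ) ^ 3 * b / 2 * (7 / 10) := by ring
    _ ≤ t := by
        have : (0 : ℝ) ≤ (a : ℝ) ^ 3 * b := by positivity
        linarith

end Matrices

end Vale.Agent.P335.H978
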