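import Vale.Agent.P335.H978.GapG
import Vale.Agent.P335.H586.BipChain

/-!
# P335: the Curveball chain on zero-one matrices
-/

namespace Vale.Agent.P335.H978

open Finset Vale.Agent.P335 Vale.Agent.P335.RA Vale.Agent.P335.H586

section Gram

variable {V Ω : Type*} [Fintype V] [DecidableEq V] [Fintype Ω]

theorem ipS_left {ι : Type*} (s : Finset ι) (F : ι → Ω → ℝ) (g : Ω → ℝ) :
    ip (∑ i ∈ s, F i) g = ∑ i ∈ s, ip (F i) g := by
  unfold ip
  rw [Finset.sum_comm]
  refine Finset.sum_congr rfl fun x _ => ?_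
  rw [Finset.sum_apply, Finset.sum_mul]

theorem ipIte_left (P : Prop) [Decidable P] (f g : Ω → ℝ) :
    ip (if P then f else 0) g = if P then ip f g else 0 := by
  split_ifs
  · rfl
  · unfold ip; simp only [Pi.zero_apply, zero_mul, sum_const_zero]

theorem ipSS_left (E : V → V → Ω → ℝ) (g : Ω → ℝ) :
    ip (∑ a, ∑ c, (if a ≠ c then E a c else 0)) g =
      ∑ a, ∑ c, (if a ≠ c then ip (E a c) g else 0) := by
  rw [ipS_left]
  refine Finset.sum_congr rfl fun a _ => ?_
  rw [ipS_left]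
  exact Finset.sum_congr rfl fun c _ => ipIte_left _ _ _

open Classical in
theorem gram (E : V → V → Ω → ℝ) (hE : ∀ a c, E a c = E c a) :
    ip (∑ a, ∑ c, (if a ≠ c then E a c else 0)) (∑ a, ∑ c, (if a ≠ c then E a c else 0)) =
      ∑ a, ∑ c, ∑ b, ∑ e, (if Four a c b e then ip (E a c) (E b e) else 0) +
      4 * ∑ a, ∑ c, ∑ x, (if a ≠ c ∧ c ≠ x ∧ a ≠ x then ip (E a c) (E a x) else 0) +
      2 * ∑ a, ∑ c, (if a ≠ c then ip (E a c) (E a c) else 0) := by
  have e1 : ip (∑ a, ∑ c, (if a ≠ c then E a c else 0)) (∑ a, ∑ c, (if a ≠ c then E a c else 0)) =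
      ∑ a : V, ∑ c : V, (if a ≠ c then
      ∑ b : V, ∑ e : V, (if b ≠ e then ip (E a c) (E b e) else 0) else 0) := by
    rw [ipSS_left]
    refine Finset.sum_congr rfl fun a _ => Finset.sum_congr rfl fun c _ => ?_
    split_ifs with h
    · rw [ip_comm, ipSS_left]
      refine Finset.sum_congr rfl fun b _ => Finset.sum_congr rfl fun e _ => ?_
      rw [ip_comm]
    · rfl
  have e2 : ∀ a c : V, (if a ≠ c then
      ∑ b : V, ∑ e : V, (if b ≠ e then ip (E a c) (E b e) else 0) else 0) =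
      ∑ b, ∑ e, (if Four a c b e then ip (E a c) (E b e) else 0) +
      2 * ∑ x, (if a ≠ c ∧ c ≠ x ∧ a ≠ x then ip (E a c) (E a x) else 0) +
      2 * ∑ x, (if c ≠ a ∧ a ≠ x ∧ c ≠ x then ip (E c a) (E c x) else 0) +
      2 * (if a ≠ c then ip (E a c) (E a c) else 0) := by
    intro a c
    by_cases hac : a = c
    · subst hac
      have h4 : ∀ b e : V, ¬ Four a a b e := fun b e h => h.ac rfl
      simp only [ne_eq, not_true_eq_false, ↓reduceIte, h4, sum_const_zero, and_self, false_and,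
        mul_zero, add_zero]
    · rw [if_pos hac, sum_pairs hac (fun b e => ip (E a c) (E b e)), if_pos hac]
      have s1 : ∑ e, (if e ≠ a ∧ e ≠ c then ip (E a c) (E a e) else 0) =
          ∑ x, (if a ≠ c ∧ c ≠ x ∧ a ≠ x then ip (E a c) (E a x) else 0) := by
        refine Finset.sum_congr rfl fun x _ => ?_
        refine if_congr ?_ rfl rfl
        constructor
        · exact fun h => ⟨hac, h.2.symm, h.1.symm⟩
        · exact fun h => ⟨h.2.2.symm, h.2.1.symm⟩
      have s2 : ∑ e, (if e ≠ a ∧ e ≠ c then ip (E a c) (E c e) else 0) =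
          ∑ x, (if c ≠ a ∧ a ≠ x ∧ c ≠ x then ip (E c a) (E c x) else 0) := by
        refine Finset.sum_congr rfl fun x _ => ?_
        rw [hE a c]
        refine if_congr ?_ rfl rfl
        constructor
        · exact fun h => ⟨Ne.symm hac, h.1.symm, h.2.symm⟩
        · exact fun h => ⟨h.2.1.symm, h.2.2.symm⟩
      have s3 : ∑ b, (if b ≠ a ∧ b ≠ c then ip (E a c) (E b a) else 0) =
          ∑ e, (if e ≠ a ∧ e ≠ c then ip (E a c) (E a e) else 0) := by
        refine Finset.sum_congr rfl fun x _ => ?_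
        rw [hE x a]
      have s4 : ∑ b, (if b ≠ a ∧ b ≠ c then ip (E a c) (E b c) else 0) =
          ∑ e, (if e ≠ a ∧ e ≠ c then ip (E a c) (E c e) else 0) := by
        refine Finset.sum_congr rfl fun x _ => ?_
        rw [hE x c]
      rw [s3, s4, s1, s2, hE c a]
      ring
  rw [e1]
  simp_rw [e2]
  simp only [Finset.sum_add_distrib, ← Finset.mul_sum]
  have e4 : ∑ a : V, ∑ c : V, ∑ x, (if c ≠ a ∧ a ≠ x ∧ c ≠ x then
        ip (E c a) (E c x) else 0) =
      ∑ a : V, ∑ c : V, ∑ x, (if a ≠ c ∧ c ≠ x ∧ a ≠ x then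
        ip (E a c) (E a x) else 0) := Finset.sum_comm
  rw [e4]
  ring

open Classical in
theorem adj_nonneg' (E : V → V → Ω → ℝ)
    (hT : ∀ a b c, a ≠ b → b ≠ c → a ≠ c →
      0 ≤ ip (E a b) (E a c) + ip (E b a) (E b c) + ip (E c a) (E c b)) :
    0 ≤ ∑ a : V, ∑ b : V, ∑ c : V, (if a ≠ b ∧ b ≠ c ∧ a ≠ c then
      ip (E a b) (E a c) else 0) := by
  set F : V → V → V → ℝ := fun a b c => if a ≠ b ∧ b ≠ c ∧ a ≠ c then
      ip (E a b) (E a c) else 0 with hF
  have h1 : ∀ a b c, 0 ≤ F a b c + F b a c + F c a b := by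
    intro a b c
    rw [hF]
    by_cases h : a ≠ b ∧ b ≠ c ∧ a ≠ c
    · have e2 : b ≠ a ∧ a ≠ c ∧ b ≠ c := ⟨h.1.symm, h.2.2, h.2.1⟩
      have e3 : c ≠ a ∧ a ≠ b ∧ c ≠ b := ⟨h.2.2.symm, h.1, h.2.1.symm⟩
      simp only [if_pos h, if_pos e2, if_pos e3]
      exact hT a b c h.1 h.2.1 h.2.2
    · have e2 : ¬ (b ≠ a ∧ a ≠ c ∧ b ≠ c) := fun h' => h ⟨h'.1.symm, h'.2.2, h'.2.1⟩
      have e3 : ¬ (c ≠ a ∧ a ≠ b ∧ c ≠ b) := fun h' => h ⟨h'.2.1, h'.2.2.symm, h'.1.symm⟩
      simp only [if_neg h, if_neg e2, if_neg e3]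
      norm_num
  have h2 : 0 ≤ ∑ a, ∑ b, ∑ c, (F a b c + F b a c + F c a b) :=
    Finset.sum_nonneg fun a _ => Finset.sum_nonneg fun b _ => Finset.sum_nonneg fun c _ => h1 a b c
  simp only [Finset.sum_add_distrib] at h2
  have h3 : ∑ a, ∑ b, ∑ c, F b a c = ∑ a, ∑ b, ∑ c, F a b c := Finset.sum_comm
  have h4 : ∑ a, ∑ b, ∑ c, F c a b = ∑ a, ∑ b, ∑ c, F a b c := by
    have : ∑ a, ∑ b, ∑ c, F c a b = ∑ a, ∑ c, ∑ b, F c a b :=
      Finset.sum_congr rfl fun a _ => Finset.sum_comm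
    rw [this, Finset.sum_comm]
  rw [h3, h4] at h2
  linarith only [h2]

end Gram

section Rows

variable {a b : ℕ} {r : Fin a → ℕ} {c : Fin b → ℕ}

/-- zero-one matrices with given margins and matrix states of the split graphs -/
noncomputable def PhiB (r : Fin a → ℕ) (c : Fin b → ℕ) [Nonempty (Margins r c)] :
    Margins r c ≃ RA.St (sd r c) :=
  (Equiv.ofBijective (PhiF r c) ⟨Phi_inj, Phi_surj⟩).trans (Phi (sd r c))

theorem rows_iff (M N : Fin a → Fin b → Bool) (i k : Fin a) :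
    RowsAgree i k M N ↔ AgreeOff (vA i) (vA k) (H586.sg M) (H586.sg N) := by
  constructor
  · intro h u v huv
    rcases vtx u with ⟨l, rfl⟩ | ⟨l, rfl⟩ <;> rcases vtx v with ⟨m, rfl⟩ | ⟨m, rfl⟩
    · rw [sg_AA, sg_AA]
    · rw [sg_AB, sg_AB]
      have h1 : ¬ (l = i ∨ l = k) := by
        intro h1
        have h2 := huv.1 (h1.imp (fun h => by rw [h]) (fun h => by rw [h]))
        rcases h2 with h2 | h2
        · exact vAB h2.symm
        · exact vAB h2.symm
      rw [h l (fun h' => h1 (Or.inl h')) (fun h' => h1 (Or.inr h'))]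
    · rw [sg_BA, sg_BA]
      have h1 : ¬ (m = i ∨ m = k) := by
        intro h1
        have h2 := huv.2 (h1.imp (fun h => by rw [h]) (fun h => by rw [h]))
        rcases h2 with h2 | h2
        · exact vAB h2.symm
        · exact vAB h2.symm
      rw [h m (fun h' => h1 (Or.inl h')) (fun h' => h1 (Or.inr h'))]
    · exact ⟨fun h' => absurd h' (sg_BB _ _ _), fun h' => absurd h' (sg_BB _ _ _)⟩
  · intro h l h1 h2
    funext j
    have h3 := h (vA l) (vB j) (by
      constructor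
      · rintro (h' | h')
        · exact absurd (vA_inj.1 h') h1
        · exact absurd (vA_inj.1 h') h2
      · rintro (h' | h')
        · exact absurd h'.symm vAB
        · exact absurd h'.symm vAB)
    rw [sg_AB, sg_AB] at h3
    rw [Bool.eq_iff_iff]
    exact h3

theorem rows_iff' [Nonempty (Margins r c)] (M N : Margins r c) (i k : Fin a) :
    RowsAgree i k M.1 N.1 ↔
      (pairRel (vA i) (vA k) : Setoid (RA.St (sd r c))) (PhiB r c M) (PhiB r c N) := by
  rw [rows_iff]
  exact agree_iff (sd r c) (PhiF r c M) (PhiF r c N) (vA i) (vA k)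

theorem bipCurveball_eq [Nonempty (Margins r c)] (M N : Margins r c) :
    bipCurveball r c M N = mixP (univ : Finset (Fin a)).offDiag
      (fun q => (pairRel (vA q.1) (vA q.2) : Setoid (RA.St (sd r c)))) (1 / ((a : ℝ) * (a - 1)))
      (PhiB r c M) (PhiB r c N) := by
  classical
  unfold bipCurveball mixP
  refine Finset.sum_congr rfl fun q _ => ?_
  have hc : (univ.filter fun K : Margins r c => RowsAgree q.1 q.2 M.1 K.1).card =
      (cls (pairRel (vA q.1) (vA q.2) : Setoid (RA.St (sd r c))) (PhiB r c M)).card := by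
    refine Finset.card_bij (fun K _ => PhiB r c K) ?_ ?_ ?_
    · intro K hK
      rw [Finset.mem_filter] at hK
      exact mem_cls.2 ((rows_iff' M K q.1 q.2).1 hK.2)
    · intro K _ K' _ h
      exact (PhiB r c).injective h
    · intro x hx
      refine ⟨(PhiB r c).symm x, ?_, (PhiB r c).apply_symm_apply x⟩
      rw [Finset.mem_filter]
      refine ⟨Finset.mem_univ _, ?_⟩
      rw [rows_iff', Equiv.apply_symm_apply]
      exact mem_cls.1 hx
  by_cases h : RowsAgree q.1 q.2 M.1 N.1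
  · rw [if_pos h, if_pos ((rows_iff' M N q.1 q.2).1 h)]
    congr 3
  · rw [if_neg h, if_neg (fun h' => h ((rows_iff' M N q.1 q.2).2 h'))]

/-- the first class is a clique in every state -/
theorem clique [hne : Nonempty (Margins r c)] (x : RA.St (sd r c)) {i k : Fin a} (h : i ≠ k) :
    x.1 (vA i) (vA k) = 1 := by
  classical
  obtain ⟨M, rfl⟩ := (PhiB r c).surjective x
  have h1 : (Phi (sd r c) (PhiF r c M)).1 (vA i) (vA k) = 1 := by
    rw [Phi_val]
    rw [if_pos]
    show (H586.sg M.1).Adj (vA i) (vA k)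
    rw [sg_AA]
    exact h
  exact h1

theorem disj_rows [Nonempty (Margins r c)] (f : RA.St (sd r c) → ℝ) {i k l m : Fin a}
    (h : Four i k l m) :
    0 ≤ ip (Dev (vA i) (vA k) f) (Dev (vA l) (vA m) f) := by
  classical
  have h4 : Four (vA i : Fin (a + b)) (vA k) (vA l) (vA m) :=
    ⟨fun e => h.ac (vA_inj.1 e), fun e => h.be (vA_inj.1 e), fun e => h.ab (vA_inj.1 e),
      fun e => h.ae (vA_inj.1 e), fun e => h.cb (vA_inj.1 e), fun e => h.ce (vA_inj.1 e)⟩
  have hX : ∀ x : RA.St (sd r c), ¬ IsX (vA i) (vA k) (vA l) (vA m) x := by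
    intro x hx
    apply hx.2.2.2
    rw [clique x h.ab, clique x h.ae]
  have hX' : ∀ x : RA.St (sd r c), ¬ IsX (vA l) (vA m) (vA i) (vA k) x :=
    fun x hx => hX x hx.swap
  have h1 := pair_ineq h4 f
  have e1 : xdiff (vA i) (vA k) (vA l) (vA m) f = 0 := by
    funext x
    unfold xdiff res
    rw [if_neg (hX x)]; rfl
  have e2 : xdiff (vA l) (vA m) (vA i) (vA k) f = 0 := by
    funext x
    unfold xdiff res
    rw [if_neg (hX' x)]; rfl
  rw [e1, e2] at h1
  have e0 : ip (0 : RA.St (sd r c) → ℝ) 0 = 0 := by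
    unfold ip; simp only [Pi.zero_apply, mul_zero, sum_const_zero]
  rw [e0] at h1
  have h2 := ip_self_nonneg (Pi2 (vA i) (vA k) (vA l) (vA m) f)
  linarith only [h1, h2]

theorem sw_rows [Nonempty (Margins r c)] (x y : RA.St (sd r c)) (h : Sw (eset x) (eset y)) :
    ∃ i k : Fin a, i ≠ k ∧ (pairRel (vA i) (vA k) : Setoid (RA.St (sd r c))) x y := by
  obtain ⟨M, rfl⟩ := (PhiB r c).surjective x
  obtain ⟨N, rfl⟩ := (PhiB r c).surjective y
  have e : ∀ M : Margins r c, eset (PhiB r c M) = eF (H586.sg M.1) := fun M =>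
    eset_ofEset _ (eF_mem_Om.mpr (PhiF r c M).2)
  rw [e, e, ← switchAdj_iff] at h
  obtain ⟨i, i', j, j', hi, hj, _, _, _, _, hN⟩ := bipAdj_of_switch h
  refine ⟨i, i', hi, ?_⟩
  rw [← rows_iff', hN]
  intro l h1 h2
  funext m
  unfold bipMove
  split_ifs
  · simp only
    rw [if_neg]
    rintro ⟨h3 | h3, _⟩
    · exact h1 h3
    · exact h2 h3
  · rfl

/-- the sum of the deviations over the ordered pairs of rows -/
noncomputable def TB (r : Fin a → ℕ) (c : Fin b → ℕ) :
    (RA.St (sd r c) → ℝ) →ₗ[ℝ] (RA.St (sd r c) → ℝ) :=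
  ∑ i : Fin a, ∑ k : Fin a, (if i ≠ k then cdevL (pairRel (vA i) (vA k)) else 0)

theorem TB_apply (f : RA.St (sd r c) → ℝ) :
    TB r c f = ∑ i : Fin a, ∑ k : Fin a, (if i ≠ k then Dev (vA i) (vA k) f else 0) := by
  unfold TB
  rw [LinearMap.sum_apply]
  refine Finset.sum_congr rfl fun i _ => ?_
  rw [LinearMap.sum_apply]
  refine Finset.sum_congr rfl fun k _ => ?_
  split_ifs <;> simp [Dev]

theorem ip_TB (f g : RA.St (sd r c) → ℝ) :
    ip (TB r c f) g = ∑ i : Fin a, ∑ k : Fin a, (if i ≠ k then ip (Dev (vA i) (vA k) f) g else 0) := by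
  rw [TB_apply]
  exact ipSS_left (fun i k => Dev (vA i) (vA k) f) g

theorem ip_TB_self (f : RA.St (sd r c) → ℝ) :
    ip f (TB r c f) = ∑ i : Fin a, ∑ k : Fin a,
      (if i ≠ k then ip (Dev (vA i) (vA k) f) (Dev (vA i) (vA k) f) else 0) := by
  rw [ip_comm, ip_TB]
  refine Finset.sum_congr rfl fun i _ => Finset.sum_congr rfl fun k _ => ?_
  split_ifs
  · unfold Dev; rw [ip_comm, ip_cdev_self]
  · rfl

theorem TB_symm (f g : RA.St (sd r c) → ℝ) : ip (TB r c f) g = ip f (TB r c g) := by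
  rw [ip_TB, ip_comm f, ip_TB]
  refine Finset.sum_congr rfl fun i _ => Finset.sum_congr rfl fun k _ => ?_
  split_ifs
  · unfold Dev; rw [ip_cdev, ip_comm]
  · rfl

theorem TB_self_nonneg (f : RA.St (sd r c) → ℝ) : 0 ≤ ip f (TB r c f) := by
  rw [ip_TB_self]
  refine Finset.sum_nonneg fun i _ => Finset.sum_nonneg fun k _ => ?_
  split_ifs
  · exact ip_self_nonneg _
  · exact le_rfl

theorem TB_sq [Nonempty (Margins r c)] (f : RA.St (sd r c) → ℝ) :
    2 * ip f (TB r c f) ≤ ip (TB r c f) (TB r c f) := by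
  classical
  rw [ip_TB_self, TB_apply, gram (fun i k => Dev (vA i) (vA k) f) (fun i k => Dev_comm _ _ f)]
  have h1 : 0 ≤ ∑ i : Fin a, ∑ k, ∑ l, ∑ m, (if Four i k l m then
      ip (Dev (vA i) (vA k) f) (Dev (vA l) (vA m) f) else 0) := by
    refine Finset.sum_nonneg fun i _ => Finset.sum_nonneg fun k _ => Finset.sum_nonneg fun l _ =>
      Finset.sum_nonneg fun m _ => ?_
    split_ifs with h
    · exact disj_rows f h
    · exact le_rfl
  have h2 := adj_nonneg' (fun i k : Fin a => Dev (vA i : Fin (a + b)) (vA k) f)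
    (fun i k l hik hkl hil => by
      have h := RA.triple_nonneg (d := sd r c) (a := vA i) (b := vA k) (c := vA l)
        (fun e => hik (vA_inj.1 e)) (fun e => hil (vA_inj.1 e)) (fun e => hkl (vA_inj.1 e)) f
      rw [RA.Dev_comm (vA k) (vA i), RA.Dev_comm (vA l) (vA i), RA.Dev_comm (vA l) (vA k)]
      exact h)
  linarith only [h1, h2]

theorem TB_ker [Nonempty (Margins r c)] (f : RA.St (sd r c) → ℝ) (h : TB r c f = 0) :
    ∀ x y, f x = f y := by
  have h1 := ip_TB_self f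
  rw [h] at h1
  have h0 : ip f (0 : RA.St (sd r c) → ℝ) = 0 := by
    unfold ip; simp only [Pi.zero_apply, mul_zero, sum_const_zero]
  rw [h0] at h1
  have hnn : ∀ i k : Fin a, 0 ≤ (if i ≠ k then ip (Dev (vA i : Fin (a + b)) (vA k) f)
      (Dev (vA i) (vA k) f) else 0) := by
    intro i k
    split_ifs
    · exact ip_self_nonneg _
    · exact le_rfl
  have h2 := (Finset.sum_eq_zero_iff_of_nonneg
    (fun i _ => Finset.sum_nonneg fun k _ => hnn i k)).1 h1.symm
  refine const_of_Sw f fun x y hxy => ?_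
  obtain ⟨i, k, hik, hr⟩ := sw_rows x y hxy
  have h3 := (Finset.sum_eq_zero_iff_of_nonneg (fun k _ => hnn i k)).1 (h2 i (mem_univ i)) k
    (mem_univ k)
  rw [if_pos hik, ip_self_eq_sum_sq, Finset.sum_eq_zero_iff_of_nonneg (fun _ _ => sq_nonneg _)]
    at h3
  have h4 : ∀ z, f z = cavg (pairRel (vA i) (vA k)) f z := by
    intro z
    have h5 := pow_eq_zero_iff (two_ne_zero) |>.mp (h3 z (mem_univ z))
    simp only [Dev, cdev, Pi.sub_apply] at h5
    linarith only [h5]
  rw [h4 x, h4 y]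
  exact cavg_congr hr f

theorem rows_gap [Nonempty (Margins r c)] (f : RA.St (sd r c) → ℝ) (hf : ∑ x, f x = 0) :
    2 * ∑ x, f x ^ 2 ≤ ∑ q ∈ (univ : Finset (Fin a)).offDiag,
      ip (Dev (vA q.1) (vA q.2) f) (Dev (vA q.1) (vA q.2) f) := by
  have h1 := spectral_gap (TB r c) (fun f g => TB_symm f g) (fun f => TB_self_nonneg f)
    (fun f => by
      change 2 * ip f (TB r c f) ≤ _
      rw [← ip_self_eq_sum_sq]
      exact TB_sq f) TB_ker f
  change _ ≤ ip f (TB r c f) at h1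
  rw [ip_TB_self, hf] at h1
  simp only [zero_div, sub_zero] at h1
  refine h1.trans (le_of_eq ?_)
  exact (sum_offDiag (fun i k : Fin a => ip (Dev (vA i : Fin (a + b)) (vA k) f)
    (Dev (vA i) (vA k) f))).symm

open Classical in
theorem posC_bip (ha : 2 ≤ a) [Nonempty (Margins r c)] :
    PosC (bipCurveball r c) (2 / ((a : ℝ) * (a - 1))) := by
  have ha' : (2 : ℝ) ≤ a := by exact_mod_cast ha
  have hpos : (0 : ℝ) < (a : ℝ) * (a - 1) := mul_pos (by linarith) (by linarith)
  have h4 : (2 : ℝ) ≤ (a : ℝ) * (a - 1) := by nlinarith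
  have e : 2 / ((a : ℝ) * (a - 1)) = 1 / ((a : ℝ) * (a - 1)) * 2 := by ring
  have hcard : (((univ : Finset (Fin a)).offDiag).card : ℝ) = (a : ℝ) * (a - 1) := by
    rw [Finset.offDiag_card, Finset.card_univ, Fintype.card_fin, Nat.cast_sub (Nat.le_mul_self a)]
    push_cast; ring
  have hM : PosC (mixP (univ : Finset (Fin a)).offDiag
      (fun q => (pairRel (vA q.1) (vA q.2) : Setoid (RA.St (sd r c)))) (1 / ((a : ℝ) * (a - 1))))
      (1 / ((a : ℝ) * (a - 1)) * 2) := by
    refine posC_mix _ _ _ 2 ?_ (by positivity) (by positivity) ?_ ?_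
    · rw [hcard]; exact one_div_mul_cancel hpos.ne'
    · rw [← e, div_le_one hpos]; exact h4
    · intro f hf
      exact rows_gap f hf
  rw [e]
  exact PosC.of_equiv (PhiB r c) hM (fun M N => bipCurveball_eq M N)

end Rows

end Vale.Agent.P335.H978
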