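import Vale.Agent.P335.H978.Abs
import Vale.Agent.P335.Bdl.B2

/-!
# P335: the Curveball chain on graphs
-/

namespace Vale.Agent.P335.H978

open Finset Vale.Agent.P335 Vale.Agent.P335.RA

section Mix

variable {Ω ι : Type*} [Fintype Ω]

open Classical in
/-- mixture of resampling matrices -/
noncomputable def mixP (s : Finset ι) (r : ι → Setoid Ω) (w : ℝ) : Ω → Ω → ℝ :=
  fun x y => ∑ q ∈ s, w * (if r q x y then 1 / ((cls (r q) x).card : ℝ) else 0)

theorem mixP_apply (s : Finset ι) (r : ι → Setoid Ω) (w : ℝ) (f : Ω → ℝ) (x : Ω) :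
    ∑ y, mixP s r w x y * f y = w * ∑ q ∈ s, cavg (r q) f x := by
  classical
  unfold mixP
  simp_rw [Finset.sum_mul]
  rw [Finset.sum_comm, Finset.mul_sum]
  refine Finset.sum_congr rfl fun q _ => ?_
  unfold cavg
  rw [Finset.sum_div, Finset.mul_sum]
  have : ∀ y, w * (if r q x y then 1 / ((cls (r q) x).card : ℝ) else 0) * f y =
      if y ∈ cls (r q) x then w * (f y / ((cls (r q) x).card : ℝ)) else 0 := by
    intro y
    by_cases h : r q x y
    · rw [if_pos h, if_pos (mem_cls.2 h)]; ring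
    · rw [if_neg h, if_neg (fun h' => h (mem_cls.1 h'))]; ring
  simp_rw [this]
  rw [← Finset.sum_filter]
  refine Finset.sum_congr ?_ fun _ _ => rfl
  ext y; simp

theorem posC_mix (s : Finset ι) (r : ι → Setoid Ω) (w κ : ℝ) (hw : w * s.card = 1) (hw0 : 0 ≤ w)
    (h0 : 0 < w * κ) (h1 : w * κ ≤ 1)
    (hgap : ∀ f : Ω → ℝ, ∑ x, f x = 0 →
      κ * ∑ x, f x ^ 2 ≤ ∑ q ∈ s, ip (cdev (r q) f) (cdev (r q) f)) :
    PosC (mixP s r w) (w * κ) := by
  have key : ∀ f : Ω → ℝ, ∑ x, f x * ∑ y, mixP s r w x y * f y =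
      w * ∑ q ∈ s, ip (cavg (r q) f) (cavg (r q) f) := by
    intro f
    simp_rw [mixP_apply]
    have e1 : ∀ x, f x * (w * ∑ q ∈ s, cavg (r q) f x) = ∑ q ∈ s, w * (f x * cavg (r q) f x) := by
      intro x; rw [Finset.mul_sum, Finset.mul_sum]
      exact Finset.sum_congr rfl fun q _ => by ring
    simp_rw [e1]
    rw [Finset.sum_comm, Finset.mul_sum]
    refine Finset.sum_congr rfl fun q _ => ?_
    rw [← Finset.mul_sum]
    congr 1
    have e2 : ip f (cavg (r q) f) = ip (cavg (r q) f) (cavg (r q) f) := by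
      rw [ip_cavg, cavg_idem]
    rw [← e2]; rfl
  refine ⟨fun x y => ?_, fun x => ?_, fun f => ?_, h0, h1, fun f hf => ?_⟩
  · unfold mixP
    refine Finset.sum_congr rfl fun q _ => ?_
    by_cases h : r q x y
    · rw [if_pos h, if_pos ((r q).symm h), cls_eq h]
    · rw [if_neg h, if_neg (fun h' => h ((r q).symm h'))]
  · have h2 := mixP_apply s r w (fun _ => 1) x
    simp only [mul_one] at h2
    rw [h2]
    have h3 : ∀ q ∈ s, cavg (r q) (fun _ => (1 : ℝ)) x = 1 := fun q _ => by rw [cavg_const]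
    rw [Finset.sum_congr rfl h3, Finset.sum_const, nsmul_eq_mul, mul_one, hw]
  · rw [key]
    exact mul_nonneg hw0 (Finset.sum_nonneg fun q _ => ip_self_nonneg _)
  · rw [key]
    have h2 : ∀ q ∈ s, ip (cavg (r q) f) (cavg (r q) f) =
        ∑ x, f x ^ 2 - ip (cdev (r q) f) (cdev (r q) f) := by
      intro q _
      have := ip_self_eq (r q) f
      rw [ip_self_eq_sum_sq f] at this
      linarith only [this]
    rw [Finset.sum_congr rfl h2, Finset.sum_sub_distrib, Finset.sum_const, nsmul_eq_mul]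
    have h3 := mul_le_mul_of_nonneg_left (hgap f hf) hw0
    have h4 : w * ((s.card : ℝ) * ∑ x, f x ^ 2) = ∑ x, f x ^ 2 := by
      rw [← mul_assoc, hw, one_mul]
    rw [mul_sub, h4]
    have h5 : (1 - w * κ) * ∑ x, f x ^ 2 = ∑ x, f x ^ 2 - w * (κ * ∑ x, f x ^ 2) := by ring
    rw [h5]
    linarith only [h3]

end Mix

section Graph

variable {n : ℕ}

theorem cc_ge {V : Type*} [Fintype V] [DecidableEq V] (d : V → ℕ) (f : RA.St d → ℝ)
    (hf : ∑ x, f x = 0) : 4 * ∑ x, f x ^ 2 ≤ CC f := by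
  have hT : TripleNonneg d := by
    intro a b c hab hbc hac f
    have h := RA.triple_nonneg (d := d) hab hac hbc f
    rw [RA.Dev_comm b a, RA.Dev_comm c a, RA.Dev_comm c b]
    exact h
  have h1 := spectral_gap (Gam d) (fun f g => Gam_symm f g) (fun f => by
      change 0 ≤ ip f (Gam d f)
      rw [ip_Gam_self]
      have := CC_nonneg f
      linarith) (fun f => by
      change 2 * ip f (Gam d f) ≤ _
      rw [ip_Gam_self, ← ip_self_eq_sum_sq]
      have := Gam_sq_ge hT f
      linarith only [this]) Gam_ker f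
  change _ ≤ ip f (Gam d f) at h1
  rw [ip_Gam_self, hf] at h1
  simp only [zero_div, sub_zero] at h1
  linarith only [h1]

theorem sum_offDiag {V : Type*} [Fintype V] [DecidableEq V] (F : V → V → ℝ) :
    ∑ q ∈ (univ : Finset V).offDiag, F q.1 q.2 = ∑ a, ∑ c, (if a ≠ c then F a c else 0) := by
  rw [← Finset.sum_product', ← Finset.sum_filter]
  refine Finset.sum_congr ?_ fun _ _ => rfl
  ext q
  simp [Finset.mem_offDiag]

/-- realizations and matrices -/
noncomputable def Phi (d : Fin n → ℕ) : Realization d ≃ RA.St d :=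
  (omEquiv d).trans (stEquiv d).symm

open Classical in
theorem Phi_val (d : Fin n → ℕ) (G : Realization d) (i j : Fin n) :
    (Phi d G).1 i j = if G.1.Adj i j then 1 else 0 := by
  show (if s(i, j) ∈ eF G.1 then (1 : ℤ) else 0) = _
  simp only [mem_eF, SimpleGraph.mem_edgeSet]

theorem agree_iff (d : Fin n → ℕ) (G H : Realization d) (a c : Fin n) :
    AgreeOff a c G.1 H.1 ↔ (pairRel a c : Setoid (RA.St d)) (Phi d G) (Phi d H) := by
  classical
  show _ ↔ ∀ i j, ¬ starPair a c i j → (Phi d G).1 i j = (Phi d H).1 i j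
  unfold AgreeOff
  refine forall_congr' fun u => forall_congr' fun v => ?_
  have e1 : ((u = a ∨ u = c) ↔ (v = a ∨ v = c)) ↔ ¬ starPair a c u v := by
    unfold starPair; tauto
  rw [e1, Phi_val, Phi_val]
  refine imp_congr_right fun _ => ?_
  by_cases h1 : G.1.Adj u v <;> by_cases h2 : H.1.Adj u v <;> simp [h1, h2]

theorem curveball_eq (d : Fin n → ℕ) (G H : Realization d) :
    curveball d G H = mixP (univ : Finset (Fin n)).offDiag
      (fun q => (pairRel q.1 q.2 : Setoid (RA.St d))) (1 / ((n : ℝ) * (n - 1)))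
      (Phi d G) (Phi d H) := by
  classical
  unfold curveball mixP
  refine Finset.sum_congr rfl fun q _ => ?_
  have hc : (univ.filter fun K : Realization d => AgreeOff q.1 q.2 G.1 K.1).card =
      (cls (pairRel q.1 q.2 : Setoid (RA.St d)) (Phi d G)).card := by
    refine Finset.card_bij (fun K _ => Phi d K) ?_ ?_ ?_
    · intro K hK
      rw [Finset.mem_filter] at hK
      exact mem_cls.2 ((agree_iff d G K q.1 q.2).1 hK.2)
    · intro K _ K' _ h
      exact (Phi d).injective h
    · intro x hx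
      refine ⟨(Phi d).symm x, ?_, (Phi d).apply_symm_apply x⟩
      rw [Finset.mem_filter]
      refine ⟨Finset.mem_univ _, ?_⟩
      rw [agree_iff, Equiv.apply_symm_apply]
      exact mem_cls.1 hx
  by_cases h : AgreeOff q.1 q.2 G.1 H.1
  · rw [if_pos h, if_pos ((agree_iff d G H q.1 q.2).1 h)]
    congr 3
  · rw [if_neg h, if_neg (fun h' => h ((agree_iff d G H q.1 q.2).2 h'))]

open Classical in
theorem posC_curveball (hn : 4 ≤ n) (d : Fin n → ℕ) :
    PosC (curveball d) (4 / ((n : ℝ) * (n - 1))) := by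
  have hn' : (4 : ℝ) ≤ n := by exact_mod_cast hn
  have hpos : (0 : ℝ) < (n : ℝ) * (n - 1) := mul_pos (by linarith) (by linarith)
  have h4 : (4 : ℝ) ≤ (n : ℝ) * (n - 1) := by nlinarith
  have e : 4 / ((n : ℝ) * (n - 1)) = 1 / ((n : ℝ) * (n - 1)) * 4 := by ring
  have hcard : (((univ : Finset (Fin n)).offDiag).card : ℝ) = (n : ℝ) * (n - 1) := by
    rw [Finset.offDiag_card, Finset.card_univ, Fintype.card_fin, Nat.cast_sub (Nat.le_mul_self n)]
    push_cast; ring
  have hM : PosC (mixP (univ : Finset (Fin n)).offDiag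
      (fun q => (pairRel q.1 q.2 : Setoid (RA.St d))) (1 / ((n : ℝ) * (n - 1))))
      (1 / ((n : ℝ) * (n - 1)) * 4) := by
    refine posC_mix _ _ _ 4 ?_ (by positivity) (by positivity) ?_ ?_
    · rw [hcard]; exact one_div_mul_cancel hpos.ne'
    · rw [← e, div_le_one hpos]; exact h4
    · intro f hf
      refine (cc_ge d f hf).trans (le_of_eq ?_)
      exact (sum_offDiag (fun a c => ip (Dev a c f) (Dev a c f))).symm
  rw [e]
  exact PosC.of_equiv (Phi d) hM (fun G H => curveball_eq d G H)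

end Graph

end Vale.Agent.P335.H978
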